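import Vale.Agent.P290.R2.H596.Spec

/-! R2a: etale tubes over the central fibre. -/

open Set Filter Metric
open scoped Topology

namespace Vale.Agent.P290.R2.H760

open Vale.Agent.P290 Vale.Agent.P290.K Vale.Agent.P290.H580 Vale.Agent.P290.H805
open Vale.Agent.P290.R2.H596

variable {T E : Type} [TopologicalSpace T] [TopologicalSpace E] {F : Family T E}
variable {V : Type} [NormedAddCommGroup V] [NormedSpace ℂ V] {t₀ : T}

theorem exists_map2 [FiniteDimensional ℂ V] (D : Tube F V t₀) {K : Set V} (hK : Good K)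
    (hKN : K ⊆ ⋃ j, interior (D.N j)) {ρ : ℝ} (hρ : 0 < ρ) {ε : ℝ} (hε : 0 < ε) :
    ∃ r₀ > 0, ∀ r < r₀, ∀ t, D.Adm ρ r t → ∃ u : V × C2 → E,
      (∀ᶠ y in 𝓝ˢ (K ×ˢ closedBall (0 : C2) 1), FH F t u y) ∧
        ∀ y ∈ K ×ˢ closedBall (0 : C2) 1, D.Cl ε r y (u y) := by
  classical
  have gK : Good (K ×ˢ closedBall (0 : C2) 1) :=
    ⟨hK.1.prod (isCompact_closedBall _ _), hK.2.prod (convex_closedBall _ _)⟩
  have : Nonempty (ℝ × E) := ⟨(0, D.u₀ 0)⟩
  have hcovK : K ×ˢ closedBall (0 : C2) 1 ⊆ {y : V × C2 | y.1 ∈ ⋃ j, interior (D.N j)} :=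
    fun y hy => hKN hy.1
  have hopen : IsOpen {y : V × C2 | y.1 ∈ ⋃ j, interior (D.N j)} :=
    (isOpen_iUnion fun j => isOpen_interior).preimage continuous_fst
  obtain ⟨η₁, hη₁, hη₁K⟩ := gK.1.exists_cthickening_subset_open hopen hcovK
  obtain ⟨η₀, hη₀, key⟩ := perturb (C := ℝ) (Pt := ℝ × T) (Φ := ℝ × E) gK
    (fun p _ => p.1) (fun _ => 0) (fun _ p => D.Adm ρ p.1 p.2) (fun _ _ _ _ h => h)
    (fun p u y => (∀ᶠ y' in 𝓝 y, (u y').1 = p.1) ∧ FH F p.2 (fun y => (u y).2) y)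
    (fun ε y φ => D.Cl ε φ.1 y φ.2)
    (by
      rintro ⟨z₀, w₀⟩ ⟨hz₀, hw₀⟩
      obtain ⟨i, hi⟩ := mem_iUnion.1 (hKN hz₀)
      rw [mem_closedBall_zero_iff] at hw₀
      simp only at hz₀ hw₀ hi
      set U : Set (V × C2) := interior (D.N i) ×ˢ ball (0 : C2) 2 with hU
      have hUo : IsOpen U := isOpen_interior.prod isOpen_ball
      refine ⟨U, hUo.mem_nhds ⟨hi, mem_ball_zero_iff.2 (by linarith)⟩, fun S hS hSU ε hε => ?_⟩
      obtain ⟨r₀, hr₀, hest⟩ := D.exists_est hρ hε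
      refine ⟨univ ×ˢ Iio r₀, fun y _ => prod_mem_nhds univ_mem (Iio_mem_nhds hr₀), ?_⟩
      rintro ⟨r, t⟩ hA hS'
      rcases S.eq_empty_or_nonempty with rfl | ⟨y₁, hy₁⟩
      · refine ⟨fun _ => (0, D.u₀ 0), by simp only [nhdsSet_empty, eventually_bot], ?_⟩
        intro z hz
        exact absurd hz (notMem_empty z)
      have hr : r < r₀ := (hS' y₁ hy₁).2
      simp only at hA
      have hin : ∀ y ∈ U, y.1 ∈ D.N i ∧ ‖y.2‖ ≤ 2 := fun y hy =>
        ⟨interior_subset hy.1, (mem_ball_zero_iff.1 hy.2).le⟩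
      refine ⟨fun y => (r, D.P i r t y.1 y.2), ?_, fun y hy => ?_⟩
      · filter_upwards [hUo.mem_nhdsSet.2 hSU] with y hy
        refine ⟨Eventually.of_forall fun _ => rfl, ?_⟩
        obtain ⟨h1, h2⟩ := hin y hy
        have hO := D.sub i h1
        refine FH.mk_symm (v := fun y : V × C2 => D.c i y.1 + (r : ℂ) • D.η i y.1 y.2) ?_
          (hest r hr t hA i y.1 h1 y.2 h2).1
        have e1 : DifferentiableAt ℂ (fun y : V × C2 => D.c i y.1) y :=
          DifferentiableAt.comp (g := D.c i) (f := fun y : V × C2 => y.1) y (D.c_diff hO)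
            (by fun_prop)
        have e2 : DifferentiableAt ℂ (fun y : V × C2 => D.η i y.1) y :=
          DifferentiableAt.comp (g := D.η i) (f := fun y : V × C2 => y.1) y (D.η_diff i _ hO)
            (by fun_prop)
        have e3 : DifferentiableAt ℂ (fun y : V × C2 => D.η i y.1 y.2) y :=
          e2.clm_apply (by fun_prop)
        exact e1.add (DifferentiableAt.const_smul e3 (r : ℂ))
      · obtain ⟨h1, h2⟩ := hin y (hSU hy)
        exact (hest r hr t hA i y.1 h1 y.2 h2).2)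
    (by
      refine ⟨η₁, hη₁, fun A B A' B' gA gB gA' gB' hconv hAA hBB hsub ε hε => ?_⟩
      obtain ⟨δ, hδ, hm⟩ := D.merge (Q := cthickening η₁ (K ×ˢ closedBall (0 : C2) 1)) (by
        intro y hy
        obtain ⟨j, hj⟩ := mem_iUnion.1 (hη₁K hy)
        exact ⟨j, interior_subset hj⟩) A B A' B' gA gB gA' gB' hconv hAA hBB hsub ε hε
      refine ⟨δ, hδ, ?_⟩
      rintro ⟨r, t⟩ u u' hA hu hu' hcu hcu'
      simp only at hA hu hu' hcu hcu'
      have f1 : ∀ y ∈ A', (u y).1 = r := fun y hy => (hu.self_of_nhdsSet y hy).1.self_of_nhds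
      have f2 : ∀ y ∈ B', (u' y).1 = r := fun y hy => (hu'.self_of_nhdsSet y hy).1.self_of_nhds
      obtain ⟨v, hv1, hv2⟩ := hm r t (fun y => (u y).2) (fun y => (u' y).2) hA.1
        (hu.mono fun y h => h.2) (hu'.mono fun y h => h.2)
        (fun y hy => by have := hcu y hy; rwa [f1 y hy] at this)
        (fun y hy => by have := hcu' y hy; rwa [f2 y hy] at this)
      exact ⟨fun y => (r, v y), hv1.mono fun y h => ⟨Eventually.of_forall fun _ => rfl, h⟩, hv2⟩)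
  obtain ⟨𝒪, h𝒪, hsol⟩ := key 0 (η₀ / 2) le_rfl (by positivity) (by linarith) ε hε
  obtain ⟨δ, hδ, hδO⟩ := Tube.exists_uniform gK.1.cthickening (0 : ℝ) 𝒪 h𝒪
  refine ⟨δ, hδ, fun r hr t hA => ?_⟩
  obtain ⟨u, hu1, hu2⟩ := hsol (r, t) hA (fun y hy => hδO y hy r (by
    rw [dist_zero_right, Real.norm_of_nonneg hA.1.le]; exact hr.le))
  have hK0 : cthickening 0 (K ×ˢ closedBall (0 : C2) 1) = K ×ˢ closedBall (0 : C2) 1 := by
    rw [cthickening_zero, gK.1.isClosed.closure_eq]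
  rw [hK0] at hu1 hu2
  refine ⟨fun y => (u y).2, hu1.mono fun y h => h.2, fun y hy => ?_⟩
  have h1 := hu2 y hy
  have h2 : (u y).1 = r := (hu1.self_of_nhdsSet _ hy).1.self_of_nhds
  rwa [h2] at h1

theorem tube : StTube := by
  intro T E _ _ F V _ _ _ t₀ D K hK hKN ε hε
  obtain ⟨ρ, hρ, hadm⟩ := D.exists_adm
  obtain ⟨r₀, hr₀, h⟩ := exists_map2 D hK hKN hρ hε
  exact ⟨r₀, hr₀, fun r hr0 hr => h r hr t₀ (hadm r hr0).self_of_nhds⟩

end Vale.Agent.P290.R2.H760
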